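import Vale.Agent.Lib.P243.Plane

/-!
# The tetrahedron and the covering
-/

open MeasureTheory
open scoped BigOperators ENNReal

namespace Vale.Agent.P243

/-- a tetrahedron with vertices `(-4, ±8, 0)` and `(4, 0, ±8)` -/
def tetra : Set E3 := {x | |x 1| ≤ 4 - x 0 ∧ |x 2| ≤ 4 + x 0}

theorem continuous_coord (i : Fin 3) : Continuous (fun x : E3 => x i) := by
  fun_prop

theorem tetra_isCompact : IsCompact tetra := by
  refine Metric.isCompact_of_isClosed_isBounded ?_ ?_
  · have h1 : IsClosed {x : E3 | |x 1| ≤ 4 - x 0} :=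
      isClosed_le (continuous_coord 1).abs (continuous_const.sub (continuous_coord 0))
    have h2 : IsClosed {x : E3 | |x 2| ≤ 4 + x 0} :=
      isClosed_le (continuous_coord 2).abs (continuous_const.add (continuous_coord 0))
    exact h1.inter h2
  · refine (Metric.isBounded_iff_subset_closedBall 0).2 ⟨12, ?_⟩
    rintro x ⟨h1, h2⟩
    rw [mem_closedBall_zero_iff, EuclideanSpace.norm_eq, Fin.sum_univ_three]
    rw [Real.sqrt_le_left (by norm_num)]
    simp only [Real.norm_eq_abs, sq_abs]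
    have h3 := abs_nonneg (x 1)
    have h4 := abs_nonneg (x 2)
    have h5 := abs_le.1 h1
    have h6 := abs_le.1 h2
    have h7 : x 0 ^ 2 ≤ 16 := by nlinarith
    have h8 : x 1 ^ 2 ≤ 64 := by nlinarith
    have h9 : x 2 ^ 2 ≤ 64 := by nlinarith
    linarith

theorem tetra_convex : Convex ℝ tetra := by
  intro x hx y hy a b ha hb hab
  obtain ⟨hx1, hx2⟩ := hx
  obtain ⟨hy1, hy2⟩ := hy
  rw [abs_le] at hx1 hx2 hy1 hy2
  have hb' : b = 1 - a := by linarith
  subst hb'
  constructor
  · rw [abs_le]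
    simp only [PiLp.add_apply, PiLp.smul_apply, smul_eq_mul]
    constructor <;> nlinarith
  · rw [abs_le]
    simp only [PiLp.add_apply, PiLp.smul_apply, smul_eq_mul]
    constructor <;> nlinarith

theorem tetra_interior : (interior tetra).Nonempty := by
  refine ⟨0, ?_⟩
  rw [mem_interior]
  refine ⟨{x : E3 | |x 1| < 4 - x 0} ∩ {x : E3 | |x 2| < 4 + x 0}, ?_, ?_, ?_⟩
  · rintro x ⟨h1, h2⟩
    exact ⟨le_of_lt h1, le_of_lt h2⟩
  · exact (isOpen_lt (continuous_coord 1).abs (continuous_const.sub (continuous_coord 0))).inter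
      (isOpen_lt (continuous_coord 2).abs (continuous_const.add (continuous_coord 0)))
  · constructor <;> simp

theorem tetra_body : IsConvexBody tetra := ⟨tetra_isCompact, tetra_convex, tetra_interior⟩

/-- the linear map with kernel spanned by `(1, σ a, σ b)` -/
noncomputable def Lmap (σ a b : ℝ) : E3 →ₗ[ℝ] (Fin 2 → ℝ) where
  toFun x := ![σ * x 1 - a * x 0, σ * x 2 - b * x 0]
  map_add' x y := by
    funext i
    fin_cases i <;> simp <;> ring
  map_smul' c x := by
    funext i
    fin_cases i <;> simp <;> ring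

theorem Lmap_apply (σ a b : ℝ) (x : E3) :
    Lmap σ a b x = ![σ * x 1 - a * x 0, σ * x 2 - b * x 0] := rfl

/-- the direction vector -/
noncomputable def dir (σ a b : ℝ) : E3 := !₂[1, σ * a, σ * b]

theorem dir_ne (σ a b : ℝ) : dir σ a b ≠ 0 := by
  intro h
  have := congrArg (fun x : E3 => x 0) h
  simp [dir] at this

theorem Lmap_dir (σ a b : ℝ) (hσ : σ * σ = 1) : Lmap σ a b (dir σ a b) = 0 := by
  rw [Lmap_apply]
  funext i
  fin_cases i
  · simp [dir]
    linear_combination a * hσ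
  · simp [dir]
    linear_combination b * hσ

theorem Lmap_ker (σ a b : ℝ) (hσ : σ * σ = 1) (x : E3) (hx : Lmap σ a b x = 0) :
    ∃ c : ℝ, x = c • dir σ a b := by
  refine ⟨x 0, ?_⟩
  rw [Lmap_apply] at hx
  have h0 := congrFun hx 0
  have h1 := congrFun hx 1
  simp at h0 h1
  ext i
  fin_cases i
  · simp [dir]
  · simp [dir]
    linear_combination σ * h0 - x 1 * hσ
  · simp [dir]
    linear_combination σ * h1 - x 2 * hσ

theorem Lmap_surj (σ a b : ℝ) (hσ : σ * σ = 1) : Function.Surjective (Lmap σ a b) := by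
  intro z
  refine ⟨!₂[0, σ * z 0, σ * z 1], ?_⟩
  rw [Lmap_apply]
  funext i
  fin_cases i
  · simp
    linear_combination z 0 * hσ
  · simp
    linear_combination z 1 * hσ

/-- the cylinder `{x | Lmap σ a b x ∈ D}` -/
noncomputable def cyl (σ a b : ℝ) (hσ : σ * σ = 1) (D : Set (Fin 2 → ℝ)) (hD : IsCompact D) :
    Cylinder E3 :=
  mkCyl (Lmap σ a b) (dir σ a b) (dir_ne σ a b) (Lmap_dir σ a b hσ) (Lmap_ker σ a b hσ)
    (Lmap_surj σ a b hσ) D hD

theorem mem_cyl (σ a b : ℝ) (hσ : σ * σ = 1) (D : Set (Fin 2 → ℝ)) (hD : IsCompact D) (x : E3)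
    (hx : ![σ * x 1 - a * x 0, σ * x 2 - b * x 0] ∈ D) : x ∈ (cyl σ a b hσ D hD).carrier :=
  mem_mkCyl _ _ _ _ _ _ D hD x hx

theorem image_tetra_compact (σ a b : ℝ) : IsCompact (Lmap σ a b '' tetra) :=
  tetra_isCompact.image (LinearMap.continuous_of_finiteDimensional _)

theorem ratio_cyl (σ a b : ℝ) (hσ : σ * σ = 1) (D : Set (Fin 2 → ℝ)) (hD : IsCompact D) :
    (cyl σ a b hσ D hD).area / shadow (cyl σ a b hσ D hD).u tetra =
      (volume D).toReal / (volume (Lmap σ a b '' tetra)).toReal :=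
  ratio_mkCyl _ _ _ _ _ _ D hD tetra (image_tetra_compact σ a b).measurableSet

/-- images of the vertices -/
theorem vertex_image (σ a b : ℝ) (hσ : σ * σ = 1) :
    ![8 + 4 * a, 4 * b] ∈ Lmap σ a b '' tetra ∧ ![-8 + 4 * a, 4 * b] ∈ Lmap σ a b '' tetra ∧
    ![-4 * a, 8 - 4 * b] ∈ Lmap σ a b '' tetra ∧ ![-4 * a, -8 - 4 * b] ∈ Lmap σ a b '' tetra := by
  have hs : |σ| = 1 := by
    have h : |σ| * |σ| = 1 := by rw [← abs_mul, hσ, abs_one]
    nlinarith [abs_nonneg σ]
  refine ⟨⟨!₂[-4, 8 * σ, 0], ?_, ?_⟩, ⟨!₂[-4, -8 * σ, 0], ?_, ?_⟩,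
    ⟨!₂[4, 0, 8 * σ], ?_, ?_⟩, ⟨!₂[4, 0, -8 * σ], ?_, ?_⟩⟩
  · constructor
    · simp [abs_mul, hs]; norm_num
    · simp
  · rw [Lmap_apply]
    funext i
    fin_cases i
    · simp
      linear_combination 8 * hσ
    · simp
      ring
  · constructor
    · simp [abs_mul, hs]; norm_num
    · simp
  · rw [Lmap_apply]
    funext i
    fin_cases i
    · simp
      linear_combination (-8) * hσ
    · simp
      ring
  · constructor
    · simp
    · simp [abs_mul, hs]; norm_num
  · rw [Lmap_apply]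
    funext i
    fin_cases i
    · simp
      ring
    · simp
      linear_combination 8 * hσ
  · constructor
    · simp
    · simp [abs_mul, hs]; norm_num
  · rw [Lmap_apply]
    funext i
    fin_cases i
    · simp
      ring
    · simp
      linear_combination (-8) * hσ

theorem tri_subset_image (σ a b : ℝ) {P Q R : Fin 2 → ℝ} (hP : P ∈ Lmap σ a b '' tetra)
    (hQ : Q ∈ Lmap σ a b '' tetra) (hR : R ∈ Lmap σ a b '' tetra) :
    tri P Q R ⊆ Lmap σ a b '' tetra := by
  have hc : Convex ℝ (Lmap σ a b '' tetra) := tetra_convex.linear_image _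
  rintro z ⟨s, r, hs, hr, hsr, rfl⟩
  have h := hc.sum_mem (t := (Finset.univ : Finset (Fin 3))) (w := ![1 - s - r, s, r])
    (z := ![P, Q, R]) (by
      intro i _
      fin_cases i
      · simp; linarith
      · simpa using hs
      · simpa using hr) (by simp [Fin.sum_univ_three]; ring) (by
      intro i _
      fin_cases i
      · simpa using hP
      · simpa using hQ
      · simpa using hR)
  have e : P + s • (Q - P) + r • (R - P) = (1 - s - r) • P + s • Q + r • R := by
    module
  rw [e]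
  simpa [Fin.sum_univ_three] using h

end Vale.Agent.P243
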