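import Vale.Agent.Lib.P243.Body

/-!
# The five triangles and the covering of the tetrahedron by ten cylinders
-/

open MeasureTheory
open scoped BigOperators ENNReal

namespace Vale.Agent.P243

/-- the five base triangles -/
def D1 : Set (Fin 2 → ℝ) := tri ![-1, 1] ![-4, 4] ![-4, -4]
/-- second triangle -/
def D2 : Set (Fin 2 → ℝ) := tri ![-1, 1] ![-4, 4] ![4, 4]
/-- third triangle -/
def D3 : Set (Fin 2 → ℝ) := tri ![-1, 1] ![4, 4] ![-4, -4]
/-- fourth triangle -/
def D4 : Set (Fin 2 → ℝ) := tri ![-1, 1] ![-1 / 6, 43 / 18] ![1 / 4, 7 / 4]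
/-- fifth triangle -/
def D5 : Set (Fin 2 → ℝ) := tri ![-1, 1] ![-43 / 18, 1 / 6] ![-7 / 4, -1 / 4]

theorem mem_tri_of (P Q R : Fin 2 → ℝ) (y0 y1 s r : ℝ) (hs : 0 ≤ s) (hr : 0 ≤ r)
    (hsr : s + r ≤ 1) (h0 : y0 = P 0 + s * (Q 0 - P 0) + r * (R 0 - P 0))
    (h1 : y1 = P 1 + s * (Q 1 - P 1) + r * (R 1 - P 1)) : ![y0, y1] ∈ tri P Q R := by
  refine ⟨s, r, hs, hr, hsr, ?_⟩
  funext i
  fin_cases i
  · simpa using h0
  · simpa using h1

theorem cover_half (x p q : ℝ) (h1 : x - 4 ≤ p) (h2 : p ≤ 4 - x) (h3 : -4 - x ≤ q)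
    (h4 : q ≤ 4 + x) (h5 : p ≤ q) :
    ![p - 1 * x, q - 11 / 9 * x] ∈ D1 ∨ ![p - 11 / 9 * x, q - 1 * x] ∈ D2 ∨
    ![p - 2 / 3 * x, q - 2 / 3 * x] ∈ D3 ∨ ![p - 2 / 3 * x, q - 2 / 3 * x] ∈ D4 ∨
    ![p - 2 / 3 * x, q - 2 / 3 * x] ∈ D5 := by
  rcases le_total (p + q - 20 / 9 * x) 0 with hA | hA
  · rcases le_total (5 * p - 3 * q - 4 / 3 * x + 8) 0 with hB | hB
    · left
      refine mem_tri_of _ _ _ _ _ ((-5 * (p - 1 * x + 1) + 3 * (q - 11 / 9 * x - 1)) / 24)
        (-((p - 1 * x + 1) + (q - 11 / 9 * x - 1)) / 8) ?_ ?_ ?_ ?_ ?_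
      · linarith
      · linarith
      · linarith
      · simp; ring
      · simp; ring
    · rcases le_total (3 * p - 5 * q + 4 / 3 * x + 8) 0 with hC | hC
      · right; right; right; left
        refine mem_tri_of _ _ _ _ _
          ((-3 * (p - 2 / 3 * x + 1) + 5 * (q - 2 / 3 * x - 1)) * (9 / 40))
          ((5 * (p - 2 / 3 * x + 1) - 3 * (q - 2 / 3 * x - 1)) / 4) ?_ ?_ ?_ ?_ ?_
        · linarith
        · linarith
        · linarith
        · simp; ring
        · simp; ring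
      · right; right; left
        refine mem_tri_of _ _ _ _ _
          ((5 * (p - 2 / 3 * x + 1) - 3 * (q - 2 / 3 * x - 1)) / 16)
          ((3 * (p - 2 / 3 * x + 1) - 5 * (q - 2 / 3 * x - 1)) / 16) ?_ ?_ ?_ ?_ ?_
        · linarith
        · linarith
        · linarith
        · simp; ring
        · simp; ring
  · rcases le_total (3 * p - 5 * q + 4 / 3 * x + 8) 0 with hC | hC
    · right; left
      refine mem_tri_of _ _ _ _ _ ((-3 * (p - 11 / 9 * x + 1) + 5 * (q - 1 * x - 1)) / 24)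
        (((p - 11 / 9 * x + 1) + (q - 1 * x - 1)) / 8) ?_ ?_ ?_ ?_ ?_
      · linarith
      · linarith
      · linarith
      · simp; ring
      · simp; ring
    · rcases le_total (5 * p - 3 * q - 4 / 3 * x + 8) 0 with hB | hB
      · right; right; right; right
        refine mem_tri_of _ _ _ _ _
          ((-5 * (p - 2 / 3 * x + 1) + 3 * (q - 2 / 3 * x - 1)) * (9 / 40))
          ((3 * (p - 2 / 3 * x + 1) - 5 * (q - 2 / 3 * x - 1)) / 4) ?_ ?_ ?_ ?_ ?_
        · linarith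
        · linarith
        · linarith
        · simp; ring
        · simp; ring
      · right; right; left
        refine mem_tri_of _ _ _ _ _
          ((5 * (p - 2 / 3 * x + 1) - 3 * (q - 2 / 3 * x - 1)) / 16)
          ((3 * (p - 2 / 3 * x + 1) - 5 * (q - 2 / 3 * x - 1)) / 16) ?_ ?_ ?_ ?_ ?_
        · linarith
        · linarith
        · linarith
        · simp; ring
        · simp; ring

end Vale.Agent.P243
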