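import Mathlib

/-!
# P243: covering a convex body by cylinders

The definitions are written for a finite-dimensional real inner product space `E`; they are used
for `E = E3`, the Euclidean space `ℝ³`.

* `Plane u` is the orthogonal complement of the line spanned by `u`, and `planeArea u` is its
  Lebesgue (Hausdorff) measure `volume` coming from the inner product: the planar area when `E`
  is three-dimensional and `u` is nonzero.
* `Cylinder E`: a unit vector `u` and a Lebesgue measurable base of finite area in `Plane u`.
* `Cylinder.carrier C = base + ℝ u`.
* `projPlane u` is the orthogonal projection onto `Plane u`, `shadow u K` the area of the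
  projection of `K`.
* `relSum C K` is the directionwise relative area, `r3` its infimum.
-/

open MeasureTheory
open scoped BigOperators

namespace Vale.Agent.P243

/-- Euclidean three-space -/
abbrev E3 : Type := EuclideanSpace ℝ (Fin 3)

section

variable {E : Type} [NormedAddCommGroup E] [InnerProductSpace ℝ E]

/-- the subspace orthogonal to `u` -/
noncomputable abbrev Plane (u : E) : Submodule ℝ E := (Submodule.span ℝ {u})ᗮ

variable [FiniteDimensional ℝ E]

/-- the orthogonal projection onto the plane orthogonal to `u` -/
noncomputable def projPlane (u : E) : E →L[ℝ] Plane u :=
  (Plane u).orthogonalProjectionOnto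

variable [MeasurableSpace E] [BorelSpace E]

/-- the area in the plane orthogonal to `u`: the Lebesgue measure given by the inner product -/
noncomputable abbrev planeArea (u : E) : Measure (Plane u) := volume

/-- area of the orthogonal projection of `K` onto the plane orthogonal to `u` -/
noncomputable def shadow (u : E) (K : Set E) : ℝ := (planeArea u (projPlane u '' K)).toReal

variable (E) in
/-- a cylinder: the base lies in the plane orthogonal to the axis direction `u` -/
structure Cylinder where
  u : E
  norm_u : ‖u‖ = 1
  base : Set (Plane u)
  measurable_base : NullMeasurableSet base (planeArea u)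
  finite_area : planeArea u base ≠ ⊤

/-- the point set `base + ℝ u` -/
def Cylinder.carrier (C : Cylinder E) : Set E :=
  {x | ∃ b ∈ C.base, ∃ t : ℝ, x = (b : E) + t • C.u}

/-- area of the base -/
noncomputable def Cylinder.area (C : Cylinder E) : ℝ := (planeArea C.u C.base).toReal

/-- a convex body: compact, convex, nonempty interior -/
def IsConvexBody (K : Set E) : Prop := IsCompact K ∧ Convex ℝ K ∧ (interior K).Nonempty

/-- directionwise relative area of a finite family of cylinders -/
noncomputable def relSum {m : ℕ} (C : Fin m → Cylinder E) (K : Set E) : ℝ :=
  ∑ i, (C i).area / shadow (C i).u K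

end

/-- the constant `r_3`: infimum of the directionwise relative area over all convex bodies in
`ℝ³` and all finite cylinder coverings -/
noncomputable def r3 : ℝ :=
  sInf {R : ℝ | ∃ K : Set E3, IsConvexBody K ∧ ∃ (m : ℕ) (C : Fin m → Cylinder E3),
    K ⊆ ⋃ i, (C i).carrier ∧ R = relSum C K}

end Vale.Agent.P243
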