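import Mathlib

/-!
# Area of triangles in the coordinate plane `Fin 2 → ℝ`
-/

open MeasureTheory
open scoped BigOperators ENNReal

namespace Vale.Agent.P243

/-- the triangle with vertices `P`, `Q`, `R` -/
def tri (P Q R : Fin 2 → ℝ) : Set (Fin 2 → ℝ) :=
  {z | ∃ s r : ℝ, 0 ≤ s ∧ 0 ≤ r ∧ s + r ≤ 1 ∧ z = P + s • (Q - P) + r • (R - P)}

/-- the standard triangle -/
def stdTri : Set (Fin 2 → ℝ) := {z | 0 ≤ z 0 ∧ 0 ≤ z 1 ∧ z 0 + z 1 ≤ 1}

theorem volume_stdTri : volume stdTri = ENNReal.ofReal (1 / 2) := by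
  have hmp := volume_preserving_finTwoArrow ℝ
  set S : Set (ℝ × ℝ) := {z | 0 ≤ z.1 ∧ 0 ≤ z.2 ∧ z.1 + z.2 ≤ 1} with hS
  have hSc : IsClosed S := by
    have h1 : IsClosed {z : ℝ × ℝ | 0 ≤ z.1} := isClosed_le continuous_const continuous_fst
    have h2 : IsClosed {z : ℝ × ℝ | 0 ≤ z.2} := isClosed_le continuous_const continuous_snd
    have h3 : IsClosed {z : ℝ × ℝ | z.1 + z.2 ≤ 1} :=
      isClosed_le (continuous_fst.add continuous_snd) continuous_const
    exact h1.inter (h2.inter h3)
  have e : stdTri = MeasurableEquiv.finTwoArrow ⁻¹' S := by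
    ext z
    simp [stdTri, hS, MeasurableEquiv.finTwoArrow]
  rw [e, hmp.measure_preimage hSc.measurableSet.nullMeasurableSet, Measure.volume_eq_prod,
    Measure.prod_apply hSc.measurableSet]
  have e2 : ∀ x : ℝ, volume (Prod.mk x ⁻¹' S) =
      Set.indicator (Set.Icc (0 : ℝ) 1) (fun x => ENNReal.ofReal (1 - x)) x := by
    intro x
    by_cases hx : x ∈ Set.Icc (0 : ℝ) 1
    · rw [Set.indicator_of_mem hx]
      have : Prod.mk x ⁻¹' S = Set.Icc 0 (1 - x) := by
        ext y
        simp only [hS, Set.mem_preimage, Set.mem_setOf_eq, Set.mem_Icc]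
        constructor
        · rintro ⟨_, h2, h3⟩
          exact ⟨h2, by linarith⟩
        · rintro ⟨h2, h3⟩
          exact ⟨hx.1, h2, by linarith⟩
      rw [this, Real.volume_Icc]
      simp
    · rw [Set.indicator_of_notMem hx]
      have : Prod.mk x ⁻¹' S = ∅ := by
        ext y
        simp only [hS, Set.mem_preimage, Set.mem_setOf_eq, Set.mem_empty_iff_false, iff_false]
        rintro ⟨h1, h2, h3⟩
        exact hx ⟨h1, by linarith⟩
      rw [this, measure_empty]
  simp_rw [e2]
  rw [lintegral_indicator measurableSet_Icc, ← ofReal_integral_eq_lintegral_ofReal]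
  · congr 1
    rw [integral_Icc_eq_integral_Ioc, ← intervalIntegral.integral_of_le (by norm_num : (0 : ℝ) ≤ 1)]
    rw [intervalIntegral.integral_sub (by simp) (by simp)]
    simp
    norm_num
  · have : ContinuousOn (fun x : ℝ => 1 - x) (Set.Icc 0 1) := by fun_prop
    exact this.integrableOn_compact isCompact_Icc
  · rw [Filter.EventuallyLE, ae_restrict_iff' measurableSet_Icc]
    filter_upwards with x hx
    simp only [Pi.zero_apply]
    linarith [hx.2]

/-- the matrix of the affine map from the standard triangle -/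
def triMat (P Q R : Fin 2 → ℝ) : Matrix (Fin 2) (Fin 2) ℝ :=
  !![Q 0 - P 0, R 0 - P 0; Q 1 - P 1, R 1 - P 1]

theorem tri_eq (P Q R : Fin 2 → ℝ) :
    tri P Q R = (fun z => P + z) '' (Matrix.toLin' (triMat P Q R) '' stdTri) := by
  ext z
  simp only [tri, stdTri, Set.mem_setOf_eq, Set.mem_image, exists_exists_and_eq_and]
  constructor
  · rintro ⟨s, r, hs, hr, hsr, rfl⟩
    refine ⟨![s, r], ⟨by simpa using hs, by simpa using hr, by simpa using hsr⟩, ?_⟩
    funext i
    fin_cases i <;>
      simp [triMat, Matrix.toLin'_apply, Matrix.mulVec, dotProduct, Fin.sum_univ_two] <;> ring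
  · rintro ⟨w, ⟨h0, h1, h2⟩, rfl⟩
    refine ⟨w 0, w 1, h0, h1, h2, ?_⟩
    funext i
    fin_cases i <;>
      simp [triMat, Matrix.toLin'_apply, Matrix.mulVec, dotProduct, Fin.sum_univ_two] <;> ring

theorem volume_tri (P Q R : Fin 2 → ℝ) :
    volume (tri P Q R) =
      ENNReal.ofReal (|(Q 0 - P 0) * (R 1 - P 1) - (R 0 - P 0) * (Q 1 - P 1)| / 2) := by
  rw [tri_eq, Set.image_add_left, measure_preimage_add, Measure.addHaar_image_linearMap,
    LinearMap.det_toLin', volume_stdTri, ← ENNReal.ofReal_mul (abs_nonneg _)]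
  congr 1
  rw [triMat, Matrix.det_fin_two_of]
  ring

theorem isCompact_stdTri : IsCompact stdTri := by
  refine Metric.isCompact_of_isClosed_isBounded ?_ ?_
  · have h1 : IsClosed {z : Fin 2 → ℝ | 0 ≤ z 0} :=
      isClosed_le continuous_const (continuous_apply 0)
    have h2 : IsClosed {z : Fin 2 → ℝ | 0 ≤ z 1} :=
      isClosed_le continuous_const (continuous_apply 1)
    have h3 : IsClosed {z : Fin 2 → ℝ | z 0 + z 1 ≤ 1} :=
      isClosed_le ((continuous_apply 0).add (continuous_apply 1)) continuous_const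
    exact h1.inter (h2.inter h3)
  · refine (Metric.isBounded_iff_subset_closedBall 0).2 ⟨1, ?_⟩
    rintro z ⟨h0, h1, h2⟩
    rw [mem_closedBall_zero_iff, pi_norm_le_iff_of_nonneg (by norm_num)]
    intro i
    rw [Real.norm_eq_abs, abs_le]
    fin_cases i
    · exact ⟨by simp only [Fin.zero_eta]; linarith, by simp only [Fin.zero_eta]; linarith⟩
    · exact ⟨by simp only [Fin.mk_one]; linarith, by simp only [Fin.mk_one]; linarith⟩

theorem isCompact_tri (P Q R : Fin 2 → ℝ) : IsCompact (tri P Q R) := by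
  rw [tri_eq]
  have h : Continuous (Matrix.toLin' (triMat P Q R)) := LinearMap.continuous_of_finiteDimensional _
  exact (isCompact_stdTri.image h).image (by fun_prop)

/-- a convex set containing two triangles on both sides of a horizontal line -/
theorem two_tri_le {S : Set (Fin 2 → ℝ)} {P Q R R' : Fin 2 → ℝ} {c : ℝ} (hP : P 1 = c)
    (hQ : Q 1 = c) (hR : c < R 1) (hR' : R' 1 < c) (h1 : tri P Q R ⊆ S) (h2 : tri P Q R' ⊆ S) :
    volume (tri P Q R) + volume (tri P Q R') ≤ volume S := by
  have hd : AEDisjoint volume (tri P Q R) (tri P Q R') := by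
    have hsub : tri P Q R ∩ tri P Q R' ⊆ {z : Fin 2 → ℝ | z 1 = c} := by
      rintro z ⟨⟨s, r, _, hr, _, e⟩, ⟨s', r', _, hr', _, e'⟩⟩
      have e1 : z 1 = c + r * (R 1 - c) := by
        rw [e]; simp [hP, hQ]
      have e2 : z 1 = c + r' * (R' 1 - c) := by
        rw [e']; simp [hP, hQ]
      have h3 : 0 ≤ r * (R 1 - c) := mul_nonneg hr (by linarith)
      have h4 : r' * (R' 1 - c) ≤ 0 := mul_nonpos_of_nonneg_of_nonpos hr' (by linarith)
      show z 1 = c
      linarith
    refine measure_mono_null hsub ?_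
    have h5 := Measure.pi_hyperplane (ι := Fin 2) (α := fun _ => ℝ)
      (fun _ => (volume : Measure ℝ)) 1 c
    rw [← volume_pi] at h5
    exact h5
  rw [← measure_union₀ (isCompact_tri P Q R').measurableSet.nullMeasurableSet hd]
  exact measure_mono (Set.union_subset h1 h2)

end Vale.Agent.P243
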