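import Vale.Agent.Lib.P243.Defs
import Vale.Agent.Lib.P243.Tri

/-!
# Cylinders given by a linear map `ℝ³ → ℝ²`

A surjective linear map `L : ℝ³ → ℝ²` whose kernel is spanned by `w` identifies the plane
orthogonal to `w` with `ℝ²`; it multiplies areas by a constant, so quotients of areas may be
computed in `ℝ²`.
-/

open MeasureTheory
open scoped BigOperators ENNReal

namespace Vale.Agent.P243

theorem projPlane_sub (u x : E3) : ∃ c : ℝ, x = (projPlane u x : E3) + c • u := by
  have h := Submodule.sub_starProjection_mem_orthogonal (K := Plane u) x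
  have h2 : (Plane u)ᗮ = Submodule.span ℝ {u} := Submodule.orthogonal_orthogonal _
  rw [h2, Submodule.mem_span_singleton] at h
  obtain ⟨c, hc⟩ := h
  refine ⟨c, ?_⟩
  rw [hc]
  simp [projPlane, Submodule.coe_orthogonalProjectionOnto_apply]

theorem mem_plane_inner {u : E3} (y : Plane u) : inner ℝ u (y : E3) = 0 :=
  (Submodule.mem_orthogonal _ _).1 y.2 u (Submodule.mem_span_singleton_self u)

section

variable (L : E3 →ₗ[ℝ] (Fin 2 → ℝ)) (w : E3) (hw : w ≠ 0) (hLw : L w = 0)
  (hker : ∀ x, L x = 0 → ∃ c : ℝ, x = c • w) (hsurj : Function.Surjective L)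

include hw in
theorem norm_dir : ‖(‖w‖⁻¹ • w : E3)‖ = 1 := by
  rw [norm_smul, norm_inv, norm_norm]
  exact inv_mul_cancel₀ (norm_ne_zero_iff.2 hw)

include hLw in
theorem map_projPlane (x : E3) : L (projPlane (‖w‖⁻¹ • w) x : E3) = L x := by
  obtain ⟨c, hc⟩ := projPlane_sub (‖w‖⁻¹ • w) x
  have h : L x = L ((projPlane (‖w‖⁻¹ • w) x : E3) + c • (‖w‖⁻¹ • w)) := by rw [← hc]
  rw [h, map_add, map_smul, map_smul, hLw, smul_zero, smul_zero, add_zero]

include hw hLw hker hsurj in
theorem restr_bijective :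
    Function.Bijective (L ∘ₗ (Plane (‖w‖⁻¹ • w)).subtype) := by
  constructor
  · rw [← LinearMap.ker_eq_bot, LinearMap.ker_eq_bot']
    intro y hy
    obtain ⟨c, hc⟩ := hker (y : E3) hy
    have h1 := mem_plane_inner y
    rw [hc, inner_smul_left, inner_smul_right, real_inner_self_eq_norm_sq] at h1
    have hn : ‖w‖ ≠ 0 := norm_ne_zero_iff.2 hw
    have h2 : c = 0 := by
      simp only [conj_trivial, mul_eq_zero, inv_eq_zero, hn, false_or, pow_eq_zero_iff, ne_eq,
        OfNat.ofNat_ne_zero, not_false_eq_true, or_false] at h1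
      exact h1
    apply Subtype.ext
    rw [hc, h2, zero_smul]
    rfl
  · intro z
    obtain ⟨x, hx⟩ := hsurj z
    exact ⟨projPlane (‖w‖⁻¹ • w) x, by
      rw [LinearMap.comp_apply, Submodule.subtype_apply, map_projPlane L w hLw x, hx]⟩

/-- the identification of the plane with `ℝ²` -/
noncomputable def planeEquiv : Plane (‖w‖⁻¹ • w) ≃L[ℝ] (Fin 2 → ℝ) :=
  (LinearEquiv.ofBijective _ (restr_bijective L w hw hLw hker hsurj)).toContinuousLinearEquiv

theorem planeEquiv_apply (y : Plane (‖w‖⁻¹ • w)) :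
    planeEquiv L w hw hLw hker hsurj y = L (y : E3) := rfl

/-- the cylinder over `D` -/
noncomputable def mkCyl (D : Set (Fin 2 → ℝ)) (hD : IsCompact D) : Cylinder E3 where
  u := ‖w‖⁻¹ • w
  norm_u := norm_dir w hw
  base := planeEquiv L w hw hLw hker hsurj ⁻¹' D
  measurable_base :=
    (hD.measurableSet.preimage
      (planeEquiv L w hw hLw hker hsurj).continuous.measurable).nullMeasurableSet
  finite_area := by
    have h : IsCompact (planeEquiv L w hw hLw hker hsurj ⁻¹' D) :=
      (planeEquiv L w hw hLw hker hsurj).toHomeomorph.isClosedEmbedding.isCompact_preimage hD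
    exact h.measure_lt_top.ne

theorem mem_mkCyl (D : Set (Fin 2 → ℝ)) (hD : IsCompact D) (x : E3) (hx : L x ∈ D) :
    x ∈ (mkCyl L w hw hLw hker hsurj D hD).carrier := by
  obtain ⟨c, hc⟩ := projPlane_sub (‖w‖⁻¹ • w) x
  refine ⟨projPlane (‖w‖⁻¹ • w) x, ?_, c, hc⟩
  show planeEquiv L w hw hLw hker hsurj (projPlane (‖w‖⁻¹ • w) x) ∈ D
  rw [planeEquiv_apply, map_projPlane L w hLw x]
  exact hx

theorem proj_image (K : Set E3) :
    projPlane (‖w‖⁻¹ • w) '' K = planeEquiv L w hw hLw hker hsurj ⁻¹' (L '' K) := by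
  ext y
  constructor
  · rintro ⟨x, hx, rfl⟩
    exact ⟨x, hx, by rw [planeEquiv_apply, map_projPlane L w hLw x]⟩
  · rintro ⟨x, hx, hxy⟩
    refine ⟨x, hx, ?_⟩
    apply (planeEquiv L w hw hLw hker hsurj).injective
    rw [← hxy, planeEquiv_apply, map_projPlane L w hLw x]

theorem volume_preimage_eq : ∃ c : ℝ, 0 < c ∧ ∀ S : Set (Fin 2 → ℝ), MeasurableSet S →
    (volume (planeEquiv L w hw hLw hker hsurj ⁻¹' S)).toReal = c * (volume S).toReal := by
  set e := planeEquiv L w hw hLw hker hsurj with he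
  set ν : Measure (Fin 2 → ℝ) := Measure.map e volume with hν
  have : ν.IsAddHaarMeasure := ContinuousLinearEquiv.isAddHaarMeasure_map e volume
  have h1 : ν = Measure.addHaarScalarFactor ν volume • (volume : Measure (Fin 2 → ℝ)) :=
    Measure.isAddLeftInvariant_eq_smul ν volume
  have h2 : 0 < Measure.addHaarScalarFactor ν (volume : Measure (Fin 2 → ℝ)) :=
    Measure.addHaarScalarFactor_pos_of_isAddHaarMeasure ν volume
  refine ⟨Measure.addHaarScalarFactor ν volume, by exact_mod_cast h2, fun S hS => ?_⟩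
  have h3 : volume (e ⁻¹' S) = Measure.addHaarScalarFactor ν volume • volume S := by
    rw [← Measure.map_apply e.continuous.measurable hS, ← hν]
    conv_lhs => rw [h1]
    rfl
  rw [h3, ENNReal.toReal_smul]
  rfl

theorem ratio_mkCyl (D : Set (Fin 2 → ℝ)) (hD : IsCompact D) (K : Set E3)
    (hK : MeasurableSet (L '' K)) :
    (mkCyl L w hw hLw hker hsurj D hD).area /
      shadow (mkCyl L w hw hLw hker hsurj D hD).u K =
      (volume D).toReal / (volume (L '' K)).toReal := by
  obtain ⟨c, hc, h⟩ := volume_preimage_eq L w hw hLw hker hsurj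
  have h1 : (mkCyl L w hw hLw hker hsurj D hD).area = c * (volume D).toReal :=
    h D hD.measurableSet
  have h2 : shadow (mkCyl L w hw hLw hker hsurj D hD).u K = c * (volume (L '' K)).toReal := by
    show (volume (projPlane (‖w‖⁻¹ • w) '' K)).toReal = _
    rw [proj_image L w hw hLw hker hsurj K]
    exact h _ hK
  rw [h1, h2, mul_div_mul_left _ _ hc.ne']

end

end Vale.Agent.P243
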