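import Vale.Agent.Lib.P243.Cover

/-!
# P243: the directionwise form of the half-area statement is false

A tetrahedron is covered by ten cylinders whose directionwise relative area is at most
`691 / 1440 < 1 / 2`.
-/

open MeasureTheory
open scoped BigOperators ENNReal

namespace Vale.Agent.P243

theorem isCompact_D1 : IsCompact D1 := isCompact_tri _ _ _
theorem isCompact_D2 : IsCompact D2 := isCompact_tri _ _ _
theorem isCompact_D3 : IsCompact D3 := isCompact_tri _ _ _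
theorem isCompact_D4 : IsCompact D4 := isCompact_tri _ _ _
theorem isCompact_D5 : IsCompact D5 := isCompact_tri _ _ _

theorem vol_D1 : (volume D1).toReal = 12 := by
  rw [D1, volume_tri, ENNReal.toReal_ofReal (by positivity)]
  simp
  norm_num

theorem vol_D2 : (volume D2).toReal = 12 := by
  rw [D2, volume_tri, ENNReal.toReal_ofReal (by positivity)]
  simp
  norm_num

theorem vol_D3 : (volume D3).toReal = 8 := by
  rw [D3, volume_tri, ENNReal.toReal_ofReal (by positivity)]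
  simp
  norm_num

theorem vol_D4 : (volume D4).toReal = 5 / 9 := by
  rw [D4, volume_tri, ENNReal.toReal_ofReal (by positivity)]
  simp
  norm_num

theorem vol_D5 : (volume D5).toReal = 5 / 9 := by
  rw [D5, volume_tri, ENNReal.toReal_ofReal (by positivity)]
  simp
  norm_num

theorem image_finite (σ a b : ℝ) : volume (Lmap σ a b '' tetra) ≠ ⊤ :=
  (image_tetra_compact σ a b).measure_lt_top.ne

theorem shadow1 (σ : ℝ) (hσ : σ * σ = 1) :
    1280 / 9 ≤ (volume (Lmap σ 1 (11 / 9) '' tetra)).toReal := by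
  obtain ⟨h1, h2, h3, h4⟩ := vertex_image σ 1 (11 / 9) hσ
  have h := measure_mono (μ := volume) (tri_subset_image σ 1 (11 / 9) h1 h2 h4)
  rw [volume_tri] at h
  have h' := (ENNReal.ofReal_le_iff_le_toReal (image_finite σ 1 (11 / 9))).1 h
  refine le_trans ?_ h'
  simp
  norm_num

theorem shadow2 (σ : ℝ) (hσ : σ * σ = 1) :
    1280 / 9 ≤ (volume (Lmap σ (11 / 9) 1 '' tetra)).toReal := by
  obtain ⟨h1, h2, h3, h4⟩ := vertex_image σ (11 / 9) 1 hσ
  have h := measure_mono (μ := volume) (tri_subset_image σ (11 / 9) 1 h1 h3 h4)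
  rw [volume_tri] at h
  have h' := (ENNReal.ofReal_le_iff_le_toReal (image_finite σ (11 / 9) 1)).1 h
  refine le_trans ?_ h'
  simp
  norm_num

theorem shadow3 (σ : ℝ) (hσ : σ * σ = 1) :
    128 ≤ (volume (Lmap σ (2 / 3) (2 / 3) '' tetra)).toReal := by
  obtain ⟨h1, h2, h3, h4⟩ := vertex_image σ (2 / 3) (2 / 3) hσ
  have h := two_tri_le (c := 8 / 3) (by simp; norm_num) (by simp; norm_num)
    (by simp; norm_num) (by simp; norm_num)
    (tri_subset_image σ (2 / 3) (2 / 3) h1 h2 h3) (tri_subset_image σ (2 / 3) (2 / 3) h1 h2 h4)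
  rw [volume_tri, volume_tri, ← ENNReal.ofReal_add (by positivity) (by positivity)] at h
  have h' := (ENNReal.ofReal_le_iff_le_toReal (image_finite σ (2 / 3) (2 / 3))).1 h
  refine le_trans ?_ h'
  simp
  norm_num

theorem sq_one : (1 : ℝ) * 1 = 1 := by norm_num
theorem sq_neg_one : (-1 : ℝ) * (-1) = 1 := by norm_num

/-- the five cylinders of one half -/
noncomputable def five (σ : ℝ) (hσ : σ * σ = 1) : Fin 5 → Cylinder E3 :=
  ![cyl σ 1 (11 / 9) hσ D1 isCompact_D1, cyl σ (11 / 9) 1 hσ D2 isCompact_D2,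
    cyl σ (2 / 3) (2 / 3) hσ D3 isCompact_D3, cyl σ (2 / 3) (2 / 3) hσ D4 isCompact_D4,
    cyl σ (2 / 3) (2 / 3) hσ D5 isCompact_D5]

/-- the ten cylinders -/
noncomputable def ten : Fin (5 + 5) → Cylinder E3 :=
  Fin.append (five 1 sq_one) (five (-1) sq_neg_one)

theorem div_le_of {a b c r : ℝ} (ha : 0 ≤ a) (hc : 0 < c) (hb : c ≤ b) (h : a / c = r) :
    a / b ≤ r := by
  rw [← h]
  exact div_le_div_of_nonneg_left ha hc hb

theorem five_sum (σ : ℝ) (hσ : σ * σ = 1) : relSum (five σ hσ) tetra ≤ 691 / 2880 := by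
  have e1 : (cyl σ 1 (11 / 9) hσ D1 isCompact_D1).area /
      shadow (cyl σ 1 (11 / 9) hσ D1 isCompact_D1).u tetra ≤ 27 / 320 := by
    rw [ratio_cyl, vol_D1]
    exact div_le_of (by norm_num) (by norm_num) (shadow1 σ hσ) (by norm_num)
  have e2 : (cyl σ (11 / 9) 1 hσ D2 isCompact_D2).area /
      shadow (cyl σ (11 / 9) 1 hσ D2 isCompact_D2).u tetra ≤ 27 / 320 := by
    rw [ratio_cyl, vol_D2]
    exact div_le_of (by norm_num) (by norm_num) (shadow2 σ hσ) (by norm_num)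
  have e3 : (cyl σ (2 / 3) (2 / 3) hσ D3 isCompact_D3).area /
      shadow (cyl σ (2 / 3) (2 / 3) hσ D3 isCompact_D3).u tetra ≤ 1 / 16 := by
    rw [ratio_cyl, vol_D3]
    exact div_le_of (by norm_num) (by norm_num) (shadow3 σ hσ) (by norm_num)
  have e4 : (cyl σ (2 / 3) (2 / 3) hσ D4 isCompact_D4).area /
      shadow (cyl σ (2 / 3) (2 / 3) hσ D4 isCompact_D4).u tetra ≤ 5 / 1152 := by
    rw [ratio_cyl, vol_D4]
    exact div_le_of (by norm_num) (by norm_num) (shadow3 σ hσ) (by norm_num)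
  have e5 : (cyl σ (2 / 3) (2 / 3) hσ D5 isCompact_D5).area /
      shadow (cyl σ (2 / 3) (2 / 3) hσ D5 isCompact_D5).u tetra ≤ 5 / 1152 := by
    rw [ratio_cyl, vol_D5]
    exact div_le_of (by norm_num) (by norm_num) (shadow3 σ hσ) (by norm_num)
  have hs : relSum (five σ hσ) tetra =
      (cyl σ 1 (11 / 9) hσ D1 isCompact_D1).area /
        shadow (cyl σ 1 (11 / 9) hσ D1 isCompact_D1).u tetra +
      (cyl σ (11 / 9) 1 hσ D2 isCompact_D2).area /
        shadow (cyl σ (11 / 9) 1 hσ D2 isCompact_D2).u tetra +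
      (cyl σ (2 / 3) (2 / 3) hσ D3 isCompact_D3).area /
        shadow (cyl σ (2 / 3) (2 / 3) hσ D3 isCompact_D3).u tetra +
      (cyl σ (2 / 3) (2 / 3) hσ D4 isCompact_D4).area /
        shadow (cyl σ (2 / 3) (2 / 3) hσ D4 isCompact_D4).u tetra +
      (cyl σ (2 / 3) (2 / 3) hσ D5 isCompact_D5).area /
        shadow (cyl σ (2 / 3) (2 / 3) hσ D5 isCompact_D5).u tetra := by
    rw [relSum, Fin.sum_univ_five]
    rfl
  rw [hs]
  linarith

theorem ten_sum : relSum ten tetra ≤ 691 / 1440 := by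
  have h : relSum ten tetra =
      relSum (five 1 sq_one) tetra + relSum (five (-1) sq_neg_one) tetra := by
    have a1 : ∀ i : Fin 5, ten (Fin.castAdd 5 i) = five 1 sq_one i :=
      fun i => Fin.append_left _ _ i
    have a2 : ∀ i : Fin 5, ten (Fin.natAdd 5 i) = five (-1) sq_neg_one i :=
      fun i => Fin.append_right _ _ i
    rw [relSum, Fin.sum_univ_add, relSum, relSum]
    simp only [a1, a2]
  rw [h]
  have h1 := five_sum 1 sq_one
  have h2 := five_sum (-1) sq_neg_one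
  linarith

theorem mem_five (σ : ℝ) (hσ : σ * σ = 1) (x : E3) (h1 : x 0 - 4 ≤ σ * x 1)
    (h2 : σ * x 1 ≤ 4 - x 0) (h3 : -4 - x 0 ≤ σ * x 2) (h4 : σ * x 2 ≤ 4 + x 0)
    (h5 : σ * x 1 ≤ σ * x 2) : ∃ i, x ∈ (five σ hσ i).carrier := by
  rcases cover_half (x 0) (σ * x 1) (σ * x 2) h1 h2 h3 h4 h5 with h | h | h | h | h
  · exact ⟨0, mem_cyl σ _ _ hσ _ isCompact_D1 x h⟩
  · exact ⟨1, mem_cyl σ _ _ hσ _ isCompact_D2 x h⟩
  · exact ⟨2, mem_cyl σ _ _ hσ _ isCompact_D3 x h⟩
  · exact ⟨3, mem_cyl σ _ _ hσ _ isCompact_D4 x h⟩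
  · exact ⟨4, mem_cyl σ _ _ hσ _ isCompact_D5 x h⟩

theorem ten_cover : tetra ⊆ ⋃ i, (ten i).carrier := by
  rintro x ⟨h1, h2⟩
  rw [abs_le] at h1 h2
  rw [Set.mem_iUnion]
  rcases le_total (x 1) (x 2) with h | h
  · obtain ⟨i, hi⟩ := mem_five 1 sq_one x (by linarith) (by linarith) (by linarith) (by linarith)
      (by linarith)
    refine ⟨Fin.castAdd 5 i, ?_⟩
    rw [ten, Fin.append_left]
    exact hi
  · obtain ⟨i, hi⟩ := mem_five (-1) sq_neg_one x (by linarith) (by linarith) (by linarith)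
      (by linarith) (by linarith)
    refine ⟨Fin.natAdd 5 i, ?_⟩
    rw [ten, Fin.append_right]
    exact hi

theorem relSum_nonneg {m : ℕ} (C : Fin m → Cylinder E3) (K : Set E3) : 0 ≤ relSum C K :=
  Finset.sum_nonneg fun _ _ => div_nonneg ENNReal.toReal_nonneg ENNReal.toReal_nonneg

theorem r3_le : r3 ≤ 691 / 1440 := by
  refine le_trans (csInf_le ⟨0, ?_⟩ ⟨tetra, tetra_body, 5 + 5, ten, ten_cover, rfl⟩) ten_sum
  rintro R ⟨K, _, m, C, _, rfl⟩
  exact relSum_nonneg C K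

end Vale.Agent.P243
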